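import Vale.Agent.P207.FDefs3
import Vale.Agent.P207.N3.Geo.Final
import Vale.Agent.P207.Q.H791.Final2

/-!
# P207: Katok's conjecture in dimension three

On a closed connected smooth 3-manifold let `g` be any Riemannian metric of strictly negative
sectional curvature. Then `h_L ≤ h_top`, with equality if and only if `g` is locally symmetric,
and if and only if `g` has constant curvature.
-/

open scoped Manifold ContDiff ENNReal

noncomputable section

namespace Vale.Agent.Results.P207.KatokThree

open Vale.Agent.P255 (RMetric)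
open Vale.Agent.P207F

theorem result (M : Type) [TopologicalSpace M] [CompactSpace M] [T2Space M] [ConnectedSpace M]
    [ChartedSpace (EV 3) M] [IsManifold 𝓘(ℝ, EV 3) ∞ M] [MeasurableSpace M] [BorelSpace M] :
    (∀ g : RMetric (EV 3) M, WellDefined (stdB 3) g) ∧
    ∀ g : RMetric (EV 3) M, NegCurvature g →
      hLiou (stdB 3) g ≤ hTop g ∧
      (hLiou (stdB 3) g = hTop g ↔ LocSymmetric g) ∧
      (hLiou (stdB 3) g = hTop g ↔ ∃ κ : ℝ, 0 < κ ∧ ConstCurvature g κ) := by
  obtain ⟨h1, h2⟩ := QP.final2 (M := M) (P := NegCurvature) (fun _ h => h)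
    P207.N3.core_N3
  exact ⟨h1, fun g h => (h2 g h).2⟩

end Vale.Agent.Results.P207.KatokThree
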