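import Vale.Agent.P207.H566.Final
import Vale.Agent.P207.H824.PosQ

/-!
# P207: Katok's question near the quaternionic and Cayley hyperbolic metrics

`M` is a closed connected smooth manifold of dimension `n` and `g₀` a locally symmetric metric of
negative curvature on `M` of quaternionic or Cayley type. For every finite cover of `M` by compact
pieces of charts there is `ε > 0` such that every smooth metric `g` which is `ε`-close to `g₀` on
these pieces, with all derivatives of order at most `N = 65 n (n + 1) / 2 + 112`, has negative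
curvature and `h_L(g) ≤ h_top(g)`, with equality if and only if `g` is locally symmetric. If `g` has
the same volume as `g₀`, then moreover `h_L(g) ≤ h_top(g₀) ≤ h_top(g)`, and either inequality is
an equality if and only if `g` is locally symmetric.
-/

open scoped Manifold ContDiff ENNReal

noncomputable section

namespace Vale.Agent.Results.P207.NearQuatCayley

open Vale.Agent.P255 (RMetric)
open Vale.Agent.P207F

theorem result (n : ℕ) (hn : 2 ≤ n) (M : Type) [TopologicalSpace M] [CompactSpace M] [T2Space M]
    [ConnectedSpace M] [ChartedSpace (EV n) M] [IsManifold 𝓘(ℝ, EV n) ∞ M] [MeasurableSpace M]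
    [BorelSpace M] :
    (∀ g : RMetric (EV n) M, WellDefined (stdB n) g) ∧
    ∀ g₀ : RMetric (EV n) M, NegCurvature g₀ → LocSymmetric g₀ → QuatCayley g₀ →
      ∀ (m : ℕ) (a : Fin m → M) (K : Fin m → Set (EV n)), ChartCover a K →
      ∃ ε > (0 : ℝ), ∀ g : RMetric (EV n) M,
        (∀ i, CkClose (stdB n) g₀ g (65 * (n * (n + 1) / 2) + 112) (a i) (K i) ε) →
        NegCurvature g ∧ hLiou (stdB n) g ≤ hTop g ∧
        (hLiou (stdB n) g = hTop g ↔ LocSymmetric g) ∧
        (vol (stdB n) g Set.univ = vol (stdB n) g₀ Set.univ →
          hLiou (stdB n) g ≤ hTop g₀ ∧ hTop g₀ ≤ hTop g ∧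
          (hLiou (stdB n) g = hTop g₀ ↔ LocSymmetric g) ∧
          (hTop g = hTop g₀ ↔ LocSymmetric g)) :=
  near_of n hn M fun _ hN hS hQ _ _ D => Vale.Agent.P207.H824.posr_qc D hN hS hQ

end Vale.Agent.Results.P207.NearQuatCayley
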