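import Vale.Agent.P207.FDefs3
import Vale.Agent.P207.H566N.FinalN
import Vale.Agent.P207.N4.Geo.FinalQ
import Vale.Agent.P207.N5.Geo.Main

/-!
# P207: Katok's conjecture for strictly quarter-pinched manifolds of every dimension

On a closed connected smooth manifold of dimension `n ≥ 3` let `g` be a Riemannian metric all of
whose sectional curvatures lie in `(-4k, -k]` for some constant `k > 0`. Then `h_L ≤ h_top`, with
equality if and only if `g` is locally symmetric, and if and only if `g` has constant curvature.
-/

open scoped Manifold ContDiff ENNReal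

noncomputable section

namespace Vale.Agent.Results.P207.QuarterPinched

open Vale.Agent.P255 (RMetric)
open Vale.Agent.P207F

theorem result (n : ℕ) (hn : 3 ≤ n) (M : Type) [TopologicalSpace M] [CompactSpace M] [T2Space M]
    [ConnectedSpace M] [ChartedSpace (EV n) M] [IsManifold 𝓘(ℝ, EV n) ∞ M] [MeasurableSpace M]
    [BorelSpace M] :
    (∀ g : RMetric (EV n) M, WellDefined (stdB n) g) ∧
    ∀ g : RMetric (EV n) M, Vale.Agent.P207F.QuarterPinched g →
      NegCurvature g ∧ hLiou (stdB n) g ≤ hTop g ∧
      (hLiou (stdB n) g = hTop g ↔ LocSymmetric g) ∧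
      (hLiou (stdB n) g = hTop g ↔ ∃ κ : ℝ, 0 < κ ∧ ConstCurvature g κ) :=
  QN.final_quarter hn (fun g hp φ μ m hφ hμ hm heq =>
    Vale.Agent.P207.N4.core_of_quarter_n hn (fun {_} => Vale.Agent.P207.N4.V.logicV)
      g hp φ μ m hφ hμ hm heq)

end Vale.Agent.Results.P207.QuarterPinched
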