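import Vale.Agent.P207.H118.AllOf2
import Vale.Agent.P207.N4.H376.LogicG
import Vale.Agent.P207.N7.Geo.Main
import Vale.Agent.P207.N7.Geo.LogicH
import Vale.Agent.P207.N7.Geo.LogicP
import Vale.Agent.P207.N7.Geo.LogicB

/-!
# P207: Katok's conjecture in dimension three and, in higher dimensions, under bunching or pinching

On a closed connected smooth manifold of dimension `n ≥ 3` let `g` be a Riemannian metric of
strictly negative sectional curvature; if `n ≥ 4` let the geodesic flow be strictly bunched, or `g`
be strictly quarter-pinched at each tangent vector, or `g` be in one of the classes with an entropy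
or an average of the Ricci curvature. Then `h_L ≤ h_top`, with equality if and only if `g` is
locally symmetric, and if and only if `g` has constant curvature.
-/

open scoped Manifold ContDiff ENNReal

noncomputable section

namespace Vale.Agent.Results.P207.RigidBunched

open Vale.Agent.P255 (RMetric)
open Vale.Agent.P207F

theorem result (n : ℕ) (hn : 3 ≤ n) (M : Type) [TopologicalSpace M] [CompactSpace M] [T2Space M]
    [ConnectedSpace M] [ChartedSpace (EV n) M] [IsManifold 𝓘(ℝ, EV n) ∞ M] [MeasurableSpace M]
    [BorelSpace M] :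
    (∀ g : RMetric (EV n) M, WellDefined (stdB n) g) ∧
    ∀ g : RMetric (EV n) M, NegCurvature g →
      (n = 3 ∨ Bunched g ∨ VecQuarterPinched g ∨ EntropyPinched g ∨ RicciPinched g ∨
        RicciEntropyPinched g) →
      hLiou (stdB n) g ≤ hTop g ∧
      (hLiou (stdB n) g = hTop g ↔ LocSymmetric g) ∧
      (hLiou (stdB n) g = hTop g ↔ ∃ κ : ℝ, 0 < κ ∧ ConstCurvature g κ) :=
  QN.all_of2 (M := M) hn
    (fun {_} => Vale.Agent.P207.N4.Y.logicH_of Vale.Agent.P207.N4.Y.logicW)
    (fun {_} => Vale.Agent.P207.N4.Y.logicP_of Vale.Agent.P207.N4.Y.logicW)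
    (fun {_} => Vale.Agent.P207.N4.Y.logicB_of Vale.Agent.P207.N4.Y.logicW)
    (fun {_} => Vale.Agent.P207.N4.H376.logicG_of
      (Vale.Agent.P207.N4.Y.logicB_of Vale.Agent.P207.N4.Y.logicW))

end Vale.Agent.Results.P207.RigidBunched
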